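import Crest.Agent.X262.Rho82.Nz_Mg
import Crest.Agent.X262.FG.C1a5
import Crest.Agent.X262.FG.Pt1_Mg
import Crest.Agent.X262.FG.L51
import Crest.Agent.X262.FG.Bert
import Crest.Agent.X262.Bnd79.Main_Mg
import Crest.Agent.X262.RC14.Main
import Crest.Agent.X262.Reg18.Adj
import Crest.Agent.X262.Gfm18.V77_Mg
import Crest.Agent.X262.Top.T3
import Crest.Agent.X262.Qt.Main
import Crest.Agent.X262.Qt.Rf_Mg
import Crest.Agent.X262.R1.Main_Mg
import Crest.Agent.X262.R1.Beta
import Crest.Agent.X262.Sark.Main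
import Crest.Agent.X262.K3c80.Hl
import Crest.Agent.X262.KV.Srf
import Crest.Agent.X262.Surf.Defs2

-- ▼ part X262/FG/Main0
section

/-!
# Row 262, FG (helper86): the assembly of the induction

`aStmt_of_l51` : finite generation of adjoint rings from Lemma 5.1 and the finiteness of the rank
of the numerical classes.
-/

set_option autoImplicit false

namespace Crest.Agent.X262.FG

theorem nvStmt_of_l51 (hNS : NSStmt) (hL : ∀ n, L51Stmt n) : NVStmt :=
  Sg.nvStmt_of Rho82.nzStmt hL vgStmt ptStmt Prm5.posStmt (C1a5.c1aStmt hNS Rho82.nzStmt)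
    fun _ => Sg.qStmt_of

theorem aStmt_of_l51 (hNS : NSStmt) (hL : ∀ n, L51Stmt n) (n : ℕ) : AStmt n :=
  aStmt_of aStmt_zero liftStmt S4.s4Stmt (Dj.disjStmt_of_fac facStmt) (nvStmt_of_l51 hNS hL)
    Fin5.finStmt n

end Crest.Agent.X262.FG
end

-- ▼ part X262/FG/Main
section

/-!
# Row 262, FG (helper86): finite generation of adjoint rings

`aStmt` : the theorem of Cascini and Lazić, from the finiteness of the rank of numerical classes.
-/

set_option autoImplicit false

namespace Crest.Agent.X262.FG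

theorem l51Stmt (n : ℕ) : L51Stmt n := N51.l51Stmt facStmt Bert.bertStmt KV.kvl n

/-- **finite generation of adjoint rings** -/
theorem aStmt (hNS : NSStmt) (n : ℕ) : AStmt n := aStmt_of_l51 hNS l51Stmt n

end Crest.Agent.X262.FG
end

-- ▼ part X262/Bnd/Main0
section

/-!
# Row 262, BND (helper51): the closed packages
-/

set_option autoImplicit false

namespace Crest.Agent.X262.Bnd

theorem volStmt : VolStmt := Gfm.volS_of_77 (Vol77.vol_of Wr72.hil R1.beta 4)

theorem endStmt : EndStmt := End95.endStmt_of Qt.qtStmt Qt.rfStmt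

theorem divBStmt : DivBStmt :=
  DivB.divB_of End95.pgStmt Live3.liveStmt RC14.rcStmt Bnd79.car2Stmt Bnd79.j1Stmt

theorem t3Stmt : T3Stmt := Top.t3_of Bnd79.j1Stmt RC14.rcStmt End95.pgStmt

/-- the birational layer from the open leaves -/
theorem birStmt_of0 (hN : FG.NSStmt) (hL : Reg.LemAStmt) (hS : SubStmt) (hF : FamStmt) :
    Top.BirStmt :=
  birStmt_of (Sark.sark_of_fg (FG.aStmt hN 4)) endStmt (Reg.divA RC14.rcStmt hL) divBStmt hS hF
    t3Stmt

end Crest.Agent.X262.Bnd
end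

-- ▼ part X262/K3c80/Main

/-!
# Row 262, K3CHI (helper80), part 2: `χ(O) = 1 + p_g` on a regular surface

* `noV_of_irr` : without regular one-forms there is no vector field with values in `K`;
* `exists_irr` : a smooth irreducible member of `|m H|`;
* `chi_eq`     : `χ(O) = 1 + p_g`;
* `k3ChiStmt`  : `Surf.RRStmt → Surf.K3ChiStmt`.
-/

set_option autoImplicit false

open Filter Module
open scoped KaehlerDifferential

noncomputable section

namespace Crest.Agent.X262.K3c

open Crest.Agent.X277 Crest.Agent.X277.Lef Crest.Agent.X277.AN.G1 Crest.Agent.X277.BD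
open Crest.Agent.X277.BD.Br (At oP kP)
open Crest.Agent.X277.Res.Log (Bd On)
open Crest.Agent.X262.FG Crest.Agent.X262.FG.Prm5 Crest.Agent.X262.KV

variable {F : Type} [Field F] [Algebra ℂ F] {P : PModel ℂ F}

theorem det_smul {R V : Type*} [CommRing R] [AddCommGroup V] [Module R V] (b : Basis (Fin 2) R V)
    (l : V →ₗ[R] R) (η : Fin 2 → V) :
    b.det η • (l (b 1) • b 0 - l (b 0) • b 1) = l (η 1) • η 0 - l (η 0) • η 1 := by
  have h : ∀ v, v = b.repr v 0 • b 0 + b.repr v 1 • b 1 := fun v => by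
    conv_lhs => rw [← b.sum_repr v, Fin.sum_univ_two]
  rw [Basis.det_apply, Matrix.det_fin_two]
  simp only [Basis.toMatrix_apply]
  conv_rhs => rw [h (η 0), h (η 1)]
  simp only [map_add, map_smul, smul_eq_mul]
  module

/-- a vector field with values in `K` is a regular one-form -/
theorem noV_of_irr (b : Surf.B2 F) (h : ∀ ω, Top.Reg1 P ω → ω = 0) : NoV P b := fun ξ hξ => by
  have h1 := h (ξ.liftKaehlerDifferential (b 1) • b 0 - ξ.liftKaehlerDifferential (b 0) • b 1)
    fun x => by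
      obtain ⟨z, hz, h2⟩ := hξ x
      have h3 := det_smul b ξ.liftKaehlerDifferential fun i => KaehlerDifferential.D ℂ F (z i)
      simp only [Derivation.liftKaehlerDifferential_comp_D] at h3
      rw [(eq_inv_smul_iff₀ (hz.jac_ne (lp_fin x) b)).2 h3, smul_sub, smul_smul, smul_smul]
      exact sub_mem
        (Submodule.subset_span ⟨_, h2 _ (hz.mem 1), _, hz.mem 0, by rw [div_eq_inv_mul]⟩)
        (Submodule.subset_span ⟨_, h2 _ (hz.mem 0), _, hz.mem 1, by rw [div_eq_inv_mul]⟩)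
  have h2 : ξ.liftKaehlerDifferential = 0 := b.ext <| Fin.forall_fin_two.2
    ⟨by simpa using congrArg (fun v => b.repr v 1) h1,
      by simpa using congrArg (fun v => b.repr v 0) h1⟩
  ext f
  rw [← ξ.liftKaehlerDifferential_comp_D, h2]
  rfl

variable [Algebra.EssFiniteType ℂ F]

open Classical in
/-- a general member of `|m H|` is a smooth irreducible curve -/
theorem exists_irr (b : Surf.B2 F) {m : ℕ} (hm : 0 < m) :
    ∃ (C : Bd P 2) (e : C.ι), Lin (m • oP P) (dvs C (Pi.single e 1)) := by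
  obtain ⟨s, C, hs, h1, h2⟩ := exists_smooth b (nsmul_mem (Br.oP_mem (P := P)) m)
    (Br.free_oP.nsmul m)
  have hd := dim_of_basis b
  have hH : Nef (oP P) := Br.free_oP.nef
  have h3 : Lin (m • oP P) (dvs C 1) := ⟨s, hs, by rw [← h1]; abel⟩
  obtain ⟨e⟩ : Nonempty C.ι := by
    by_contra h
    have h4 := h3.bnum_eq [oP P]
    have h5 : 0 < bnum [oP P, oP P] := bnum_pos hd.symm (by simpa using ⟨hH, big_oP P⟩)
    rw [show (1 : C.ι → ℤ) = 0 from funext fun e => absurd ⟨e⟩ h, dvs_zero, bnum_zero,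
      bnum_nsmul] at h4
    exact absurd h4 (by positivity)
  have h4 : dvs C 1 = dvs C (Pi.single e 1) + dvs C (1 - Pi.single e 1) := by
    rw [← dvs_add, add_sub_cancel]
  have h5 : 0 ≤ dvs C (Pi.single e 1) := dvs_nonneg fun e' => by by_cases h : e' = e <;> simp [h]
  have h6 : 0 ≤ dvs C (1 - Pi.single e 1) :=
    dvs_nonneg fun e' => by by_cases h : e' = e <;> simp [h]
  have h7 : bnum [dvs C (Pi.single e 1), dvs C (1 - Pi.single e 1)] = 0 :=
    bnum_disj e (fun x hx e' hx' => by simp [h2 x e e' hx hx']) (by simp)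
  have h8 : bnum [dvs C (Pi.single e 1), oP P] ≠ 0 := fun h => by
    simpa using congrArg (od C e) (eq_zero_of_bnum (d := 1) hd (dvs_mem C _) h5 h)
  refine ⟨C, e, ?_⟩
  rw [h4] at h3
  rwa [eq_zero_of_bnum (d := 1) hd (dvs_mem C _) h6 ?_, add_zero] at h3
  change bnum [_, oP P] = 0
  generalize dvs C (Pi.single e 1) = Z at h3 h5 h7 h8
  generalize dvs C (1 - Pi.single e 1) = Y at h3 h6 h7
  have h9 := (eff_of_nonneg h5).bnum_nonneg (l := [oP P]) (by simpa using hH)
  have h10 := (eff_of_nonneg h6).bnum_nonneg (l := [oP P]) (by simpa using hH)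
  have h11 := bnum_cs Z hH (l := []) (by simp)
  have h12 := h3.bnum_eq [Z]
  have h13 := h3.bnum_eq [oP P]
  rw [bnum_nsmul, bnum_add, bnum_swap Y, h7, add_zero, bnum_swap] at h12
  rw [bnum_nsmul, bnum_add] at h13
  rw [← h12, mul_right_comm, h13] at h11
  have h14 := h9.lt_of_ne' h8
  exact le_antisymm (by nlinarith) h10

open Classical in
/-- **`χ(O) = 1 + p_g` if `q = 0`** -/
theorem chi_eq {b : Surf.B2 F} (hV : NoV P b) {c : ℤ} (hc : Surf.Chi P b c) :
    c = 1 + Surf.h0 (kP P b) := by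
  obtain ⟨m, hm, h0⟩ := ((hc _ (Br.kP_mem b)).and (eventually_gt_atTop 0)).exists
  obtain ⟨C, e, h1⟩ := exists_irr (P := P) b h0
  obtain ⟨b', E, _, _, ⟨Φ⟩⟩ := facStmt F 1 P C e
  have := essFiniteType Φ.P'
  have h2 := Br.lin_kP (P := P) b b'
  have h3 : (kP P b' + dvs C (Pi.single e 1)).val (pl Φ.p).V = 1 :=
    (val_pl Φ.v_eq).2 (by simp [Φ.od_K])
  have h4 := finrank_res Φ.v_eq (add_mem (Br.kP_mem b') (dvs_mem C _)) h3
  have h5 : LinearMap.range (resL Φ.p h3) = (kP Φ.P' Φ.b').Sec :=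
    le_antisymm (Φ.res_K ▸ range_resL_le h3) fun s' hs' => by
      obtain ⟨s, hs, h⟩ := hl_fc Φ (hV.chg b') hs'
      exact ⟨⟨s, hs⟩, h⟩
  have h6 : bnum [dvs C (Pi.single e 1), kP P b' + dvs C (Pi.single e 1)] =
      bnum [kP Φ.P' Φ.b'] := by
    rw [bnum_single Φ.v_eq (by simpa using add_mem (Br.kP_mem b') (dvs_mem C _)), ← Φ.res_K]
    exact (Pl.lin_rs_res h3).bnum_eq []
  have hd := dim_of_basis Φ.b'
  rw [kP_eq_kC, Loc.deg_kC hd (der1_ne Φ.P' _),
    Loc.cst_of_closed (IntermediateField.eq_bot_of_isAlgClosed_of_isAlgebraic _)] at h6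
  rw [h5, kP_eq_kC, Loc.finrank_kC hd (der1_ne Φ.P' _), add_sub_cancel_right, ← h2.finrank] at h4
  rw [Surf.h0, Surf.rr, add_sub_cancel_left, (h2.add h1).finrank, (h2.add h1).bnum_eq, bnum_swap,
    h1.bnum_eq, h6, h4] at hm
  rw [Surf.h0]
  push_cast at hm
  omega

/-- **`χ(O) = 2` on a K3 surface** -/
theorem k3ChiStmt (hR : Surf.RRStmt) : Surf.K3ChiStmt := fun F _ _ _ _ S => by
  obtain ⟨c, hc⟩ := hR F S.P S.b
  have h := chi_eq (noV_of_irr S.b S.irr) hc
  rw [Surf.h0, S.can.finrank, ← Loc.cst,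
    Loc.cst_of_closed (IntermediateField.eq_bot_of_isAlgClosed_of_isAlgebraic _)] at h
  rwa [h] at hc

end Crest.Agent.X262.K3c
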